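import Mathlib
import Vale.Agent.P142.Sharp.CheckSound
import Vale.Agent.P142.Sharp.Data.All
import Vale.Agent.P142.Sharp.Data.Packed

/-!
Kernel evaluation of `okGram`.
-/

namespace Vale.Agent.P142.Sharp.Checked

open Vale.Agent.P142.Sharp Vale.Agent.P142.Sharp.Data

set_option maxRecDepth 1000000

theorem gram0 : CData.okGram cdata aux 0 17 = true := by
  have e : cdata.vecs.map (CData.pack CData.base) = packed := packed_eq
  rw [CData.okGram, e]
  decide +kernel

theorem gram17 : CData.okGram cdata aux 17 34 = true := by
  have e : cdata.vecs.map (CData.pack CData.base) = packed := packed_eq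
  rw [CData.okGram, e]
  decide +kernel

theorem gram34 : CData.okGram cdata aux 34 51 = true := by
  have e : cdata.vecs.map (CData.pack CData.base) = packed := packed_eq
  rw [CData.okGram, e]
  decide +kernel

theorem gram51 : CData.okGram cdata aux 51 68 = true := by
  have e : cdata.vecs.map (CData.pack CData.base) = packed := packed_eq
  rw [CData.okGram, e]
  decide +kernel

end Vale.Agent.P142.Sharp.Checked
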