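import Mathlib
import Vale.Agent.P142.Sharp.CheckSound
import Vale.Agent.P142.Sharp.Data.All
import Vale.Agent.P142.Sharp.Checked.Gram1

/-!
Kernel evaluation of `okIdx`.
-/

namespace Vale.Agent.P142.Sharp.Checked

open Vale.Agent.P142.Sharp Vale.Agent.P142.Sharp.Data

set_option maxRecDepth 1000000

theorem idx0 : CData.okIdx cdata aux 0 23 = true := by decide +kernel

theorem idx23 : CData.okIdx cdata aux 23 46 = true := by decide +kernel

theorem idx46 : CData.okIdx cdata aux 46 69 = true := by decide +kernel

end Vale.Agent.P142.Sharp.Checked
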