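import Mathlib
import Vale.Agent.P142.Sharp.CheckSound
import Vale.Agent.P142.Sharp.Data.All

/-!
Kernel evaluation of the remaining checks.
-/

namespace Vale.Agent.P142.Sharp.Checked

open Vale.Agent.P142.Sharp Vale.Agent.P142.Sharp.Data

set_option maxRecDepth 1000000

theorem shape_ok : CData.okShape cdata aux = true := by decide +kernel

theorem bound_ok : CData.okBound cdata aux = true := by decide +kernel

theorem const_ok : CData.okConst cdata aux = true := by decide +kernel

theorem dcon_ok : CData.okD cdata aux = true := by decide +kernel

end Vale.Agent.P142.Sharp.Checked
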