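import Mathlib
import Vale.Agent.P142.Sharp.CheckSound
import Vale.Agent.P142.Sharp.Data.All
import Vale.Agent.P142.Sharp.Checked.Misc

/-!
Kernel evaluation of `okNeg`.
-/

namespace Vale.Agent.P142.Sharp.Checked

open Vale.Agent.P142.Sharp Vale.Agent.P142.Sharp.Data

set_option maxRecDepth 1000000

theorem neg0 : CData.okNeg cdata aux 0 9 = true := by decide +kernel

theorem neg9 : CData.okNeg cdata aux 9 18 = true := by decide +kernel

theorem neg18 : CData.okNeg cdata aux 18 27 = true := by decide +kernel

theorem neg27 : CData.okNeg cdata aux 27 36 = true := by decide +kernel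

end Vale.Agent.P142.Sharp.Checked
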