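import Mathlib
import Vale.Agent.P142.Sharp.CheckSound
import Vale.Agent.P142.Sharp.Data.All
import Vale.Agent.P142.Sharp.Checked.Neg0

/-!
Kernel evaluation of `okM`.
-/

namespace Vale.Agent.P142.Sharp.Checked

open Vale.Agent.P142.Sharp Vale.Agent.P142.Sharp.Data

set_option maxRecDepth 1000000

theorem mat0 : CData.okM cdata aux 0 5 = true := by decide +kernel

theorem mat5 : CData.okM cdata aux 5 10 = true := by decide +kernel

end Vale.Agent.P142.Sharp.Checked
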