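import Mathlib
import Vale.Agent.P142.Sharp.CheckSound
import Vale.Agent.P142.Sharp.Data.All
import Vale.Agent.P142.Sharp.Checked.Gi0

/-!
Kernel evaluation of `okRows`.
-/

namespace Vale.Agent.P142.Sharp.Checked

open Vale.Agent.P142.Sharp Vale.Agent.P142.Sharp.Data

set_option maxRecDepth 1000000

theorem rowsOk0 : CData.okRows cdata aux 0 6 = true := by decide +kernel

theorem rowsOk6 : CData.okRows cdata aux 6 12 = true := by decide +kernel

theorem rowsOk12 : CData.okRows cdata aux 12 18 = true := by decide +kernel

theorem rowsOk18 : CData.okRows cdata aux 18 23 = true := by decide +kernel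

end Vale.Agent.P142.Sharp.Checked
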