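import Mathlib
import Vale.Agent.P142.Sharp.CheckSound
import Vale.Agent.P142.Sharp.Data.All
import Vale.Agent.P142.Sharp.Checked.Idx0
import Vale.Agent.P142.Sharp.Checked.Idx1
import Vale.Agent.P142.Sharp.Checked.Gram0
import Vale.Agent.P142.Sharp.Checked.Gram1
import Vale.Agent.P142.Sharp.Checked.Gi0
import Vale.Agent.P142.Sharp.Checked.RowsOk0
import Vale.Agent.P142.Sharp.Checked.Mat0
import Vale.Agent.P142.Sharp.Checked.Mat1
import Vale.Agent.P142.Sharp.Checked.Mat2
import Vale.Agent.P142.Sharp.Checked.Mat3
import Vale.Agent.P142.Sharp.Checked.Mat4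
import Vale.Agent.P142.Sharp.Checked.Mat5
import Vale.Agent.P142.Sharp.Checked.Mat6
import Vale.Agent.P142.Sharp.Checked.Neg0
import Vale.Agent.P142.Sharp.Checked.Neg1
import Vale.Agent.P142.Sharp.Checked.Misc

/-!
All checks of the certificate.
-/

namespace Vale.Agent.P142.Sharp.Checked

open Vale.Agent.P142.Sharp Vale.Agent.P142.Sharp.Data

theorem idx_all : ∀ i < 133, CData.okIdx cdata aux i (i + 1) = true := by
  intro i hi
  rcases lt_or_ge i 23 with h23 | h23
  · exact CData.idx_chunk idx0 (by omega) h23
  rcases lt_or_ge i 46 with h46 | h46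
  · exact CData.idx_chunk idx23 (by omega) h46
  rcases lt_or_ge i 69 with h69 | h69
  · exact CData.idx_chunk idx46 (by omega) h69
  rcases lt_or_ge i 92 with h92 | h92
  · exact CData.idx_chunk idx69 (by omega) h92
  rcases lt_or_ge i 115 with h115 | h115
  · exact CData.idx_chunk idx92 (by omega) h115
  exact CData.idx_chunk idx115 (by omega) hi

theorem gram_all : ∀ i < 133, CData.okGram cdata aux i (i + 1) = true := by
  intro i hi
  rcases lt_or_ge i 17 with h17 | h17
  · exact CData.gram_chunk gram0 (by omega) h17
  rcases lt_or_ge i 34 with h34 | h34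
  · exact CData.gram_chunk gram17 (by omega) h34
  rcases lt_or_ge i 51 with h51 | h51
  · exact CData.gram_chunk gram34 (by omega) h51
  rcases lt_or_ge i 68 with h68 | h68
  · exact CData.gram_chunk gram51 (by omega) h68
  rcases lt_or_ge i 85 with h85 | h85
  · exact CData.gram_chunk gram68 (by omega) h85
  rcases lt_or_ge i 102 with h102 | h102
  · exact CData.gram_chunk gram85 (by omega) h102
  rcases lt_or_ge i 119 with h119 | h119
  · exact CData.gram_chunk gram102 (by omega) h119
  exact CData.gram_chunk gram119 (by omega) hi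

theorem gi_all : ∀ i < 23, CData.okGi cdata aux i (i + 1) = true := by
  intro i hi
  rcases lt_or_ge i 6 with h6 | h6
  · exact CData.gi_chunk gi0 (by omega) h6
  rcases lt_or_ge i 12 with h12 | h12
  · exact CData.gi_chunk gi6 (by omega) h12
  rcases lt_or_ge i 18 with h18 | h18
  · exact CData.gi_chunk gi12 (by omega) h18
  exact CData.gi_chunk gi18 (by omega) hi

theorem rowsOk_all : ∀ i < 23, CData.okRows cdata aux i (i + 1) = true := by
  intro i hi
  rcases lt_or_ge i 6 with h6 | h6
  · exact CData.rows_chunk rowsOk0 (by omega) h6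
  rcases lt_or_ge i 12 with h12 | h12
  · exact CData.rows_chunk rowsOk6 (by omega) h12
  rcases lt_or_ge i 18 with h18 | h18
  · exact CData.rows_chunk rowsOk12 (by omega) h18
  exact CData.rows_chunk rowsOk18 (by omega) hi

theorem mat_all : ∀ i < 67, CData.okM cdata aux i (i + 1) = true := by
  intro i hi
  rcases lt_or_ge i 5 with h5 | h5
  · exact CData.mat_chunk mat0 (by omega) h5
  rcases lt_or_ge i 10 with h10 | h10
  · exact CData.mat_chunk mat5 (by omega) h10
  rcases lt_or_ge i 15 with h15 | h15
  · exact CData.mat_chunk mat10 (by omega) h15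
  rcases lt_or_ge i 20 with h20 | h20
  · exact CData.mat_chunk mat15 (by omega) h20
  rcases lt_or_ge i 25 with h25 | h25
  · exact CData.mat_chunk mat20 (by omega) h25
  rcases lt_or_ge i 30 with h30 | h30
  · exact CData.mat_chunk mat25 (by omega) h30
  rcases lt_or_ge i 35 with h35 | h35
  · exact CData.mat_chunk mat30 (by omega) h35
  rcases lt_or_ge i 40 with h40 | h40
  · exact CData.mat_chunk mat35 (by omega) h40
  rcases lt_or_ge i 45 with h45 | h45
  · exact CData.mat_chunk mat40 (by omega) h45
  rcases lt_or_ge i 50 with h50 | h50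
  · exact CData.mat_chunk mat45 (by omega) h50
  rcases lt_or_ge i 55 with h55 | h55
  · exact CData.mat_chunk mat50 (by omega) h55
  rcases lt_or_ge i 60 with h60 | h60
  · exact CData.mat_chunk mat55 (by omega) h60
  rcases lt_or_ge i 65 with h65 | h65
  · exact CData.mat_chunk mat60 (by omega) h65
  exact CData.mat_chunk mat65 (by omega) hi

theorem neg_all : ∀ i < 67, CData.okNeg cdata aux i (i + 1) = true := by
  intro i hi
  rcases lt_or_ge i 9 with h9 | h9
  · exact CData.neg_chunk neg0 (by omega) h9
  rcases lt_or_ge i 18 with h18 | h18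
  · exact CData.neg_chunk neg9 (by omega) h18
  rcases lt_or_ge i 27 with h27 | h27
  · exact CData.neg_chunk neg18 (by omega) h27
  rcases lt_or_ge i 36 with h36 | h36
  · exact CData.neg_chunk neg27 (by omega) h36
  rcases lt_or_ge i 45 with h45 | h45
  · exact CData.neg_chunk neg36 (by omega) h45
  rcases lt_or_ge i 54 with h54 | h54
  · exact CData.neg_chunk neg45 (by omega) h54
  rcases lt_or_ge i 63 with h63 | h63
  · exact CData.neg_chunk neg54 (by omega) h63
  exact CData.neg_chunk neg63 (by omega) hi

theorem items_length : cdata.items.length = 133 := by decide +kernel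

theorem rows_length : cdata.rows.length = 23 := by decide +kernel

theorem mons_length : cdata.mons.length = 67 := by decide +kernel

theorem checks : CData.Checks cdata aux where
  shape := shape_ok
  idx := fun i hi => idx_all i (items_length ▸ hi)
  bound := bound_ok
  gram := fun i hi => gram_all i (items_length ▸ hi)
  const := const_ok
  gi := fun i hi => gi_all i (rows_length ▸ hi)
  rows := fun i hi => rowsOk_all i (rows_length ▸ hi)
  dcon := dcon_ok
  mat := fun i hi => mat_all i (mons_length ▸ hi)
  neg := fun i hi => neg_all i (mons_length ▸ hi)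

theorem exponent : cdata.e = Data.e0 := rfl

theorem exponent_le : cdata.e ≤ 1 := by decide +kernel

end Vale.Agent.P142.Sharp.Checked
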